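import Vale.Agent.P153D.Props

/-!
Borel probability measures on the space of distributions are determined by their one-dimensional
laws.
-/

set_option autoImplicit false

namespace Vale.Agent.P153DU

open MeasureTheory Filter Topology Set TopologicalSpace Vale.Agent.P153D

variable {Ω : Opens ℂ}

/-- The coordinates of a distribution along a sequence of test functions. -/
noncomputable def psi (φ : ℕ → Te Ω) (T : Di Ω) : ℕ → ℝ := fun n => T (φ n)

theorem psi_cont (φ : ℕ → Te Ω) : Continuous (psi φ) :=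
  continuous_pi fun n => cont_ev (φ n)

theorem psi_meas (φ : ℕ → Te Ω) : Measurable (psi φ) :=
  measurable_pi_lambda _ fun n => meas_ev (φ n)

theorem lin_ev (φ : ℕ → Te Ω) (I : Finset ℕ) (L : StrongDual ℝ (I → ℝ)) :
    ∃ ψ : Te Ω, ∀ T : Di Ω, L (I.restrict (psi φ T)) = T ψ := by
  classical
  refine ⟨∑ i : I, L (Pi.single i 1) • φ i, fun T => ?_⟩
  have h : I.restrict (psi φ T) = ∑ i : I, T (φ i) • (Pi.single i (1 : ℝ) : I → ℝ) := by
    funext j
    simp [psi, Finset.sum_apply, Pi.single_apply]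
  rw [h, map_sum, map_sum]
  refine Finset.sum_congr rfl fun i _ => ?_
  rw [map_smul, map_smul, smul_eq_mul, smul_eq_mul, mul_comm]

theorem map_psi (φ : ℕ → Te Ω) (μ ν : Measure (Di Ω)) [IsProbabilityMeasure μ]
    [IsProbabilityMeasure ν]
    (h : ∀ ψ : Te Ω, μ.map (fun T => T ψ) = ν.map (fun T => T ψ)) :
    μ.map (psi φ) = ν.map (psi φ) := by
  have h1 : IsProjectiveLimit (α := fun _ : ℕ => ℝ) (ν.map (psi φ))
      (fun I => (ν.map (psi φ)).map I.restrict) := fun _ => rfl
  have h2 : IsProjectiveLimit (α := fun _ : ℕ => ℝ) (μ.map (psi φ))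
      (fun I => (ν.map (psi φ)).map I.restrict) := by
    intro I
    refine Measure.ext_of_charFunDual (funext fun L => ?_)
    obtain ⟨ψ, hψ⟩ := lin_ev φ I L
    have hL : Measurable L := L.continuous.measurable
    have hI : Measurable (I.restrict (π := fun _ : ℕ => ℝ)) := Finset.measurable_restrict I
    have e : (L ∘ I.restrict (π := fun _ : ℕ => ℝ)) ∘ psi φ = fun T : Di Ω => T ψ := funext hψ
    rw [charFunDual_eq_charFun_map_one, charFunDual_eq_charFun_map_one,
      Measure.map_map hL hI, Measure.map_map hL hI, Measure.map_map (hL.comp hI) (psi_meas φ),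
      Measure.map_map (hL.comp hI) (psi_meas φ), e, h ψ]
  exact h2.unique h1

theorem tail (μ : Measure (Di Ω)) [IsProbabilityMeasure μ] (ψ : Te Ω) (ε : ENNReal)
    (hε : 0 < ε) : ∃ R : ℝ, (μ.map (fun T => T ψ)) {x | R < ‖x‖} ≤ ε := by
  have h := tendsto_measure_norm_gt_of_isTightMeasureSet
    (isTightMeasureSet_singleton (μ := μ.map (fun T : Di Ω => T ψ)))
  obtain ⟨R, hR⟩ := (h.eventually (ge_mem_nhds hε)).exists
  exact ⟨R, by simpa using hR⟩

theorem le_of_tight (φ : ℕ → Te Ω) (hφ : Function.Injective (psi φ)) (μ ν : Measure (Di Ω))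
    (h : μ.map (psi φ) = ν.map (psi φ))
    (ht : ∀ ε : ENNReal, 0 < ε → ∃ Q : Set (Di Ω), IsCompact Q ∧ μ Qᶜ ≤ ε)
    (A : Set (Di Ω)) (hA : MeasurableSet A) : μ A ≤ ν A := by
  refine ENNReal.le_of_forall_pos_le_add fun ε hε _ => ?_
  obtain ⟨Q, hQ, hμ⟩ := ht ε (by exact_mod_cast hε)
  have : CompactSpace Q := isCompact_iff_compactSpace.1 hQ
  have hc : Continuous (psi φ ∘ (Subtype.val : Q → Di Ω)) :=
    (psi_cont φ).comp continuous_subtype_val
  have he := (hc.isClosedEmbedding (hφ.comp Subtype.val_injective)).measurableEmbedding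
  have hB : MeasurableSet ((psi φ ∘ (Subtype.val : Q → Di Ω)) '' (Subtype.val ⁻¹' A)) :=
    he.measurableSet_image.2 (measurable_subtype_coe hA)
  have hp : psi φ ⁻¹' ((psi φ ∘ (Subtype.val : Q → Di Ω)) '' (Subtype.val ⁻¹' A)) = Q ∩ A := by
    rw [image_comp, preimage_image_eq _ hφ, Subtype.image_preimage_coe]
  have e : μ (Q ∩ A) = ν (Q ∩ A) := by
    rw [← hp, ← Measure.map_apply (psi_meas φ) hB, ← Measure.map_apply (psi_meas φ) hB, h]
  calc μ A ≤ μ (Q ∩ A ∪ Qᶜ) := measure_mono fun x hx => by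
        by_cases hq : x ∈ Q
        · exact Or.inl ⟨hq, hx⟩
        · exact Or.inr hq
    _ ≤ μ (Q ∩ A) + μ Qᶜ := measure_union_le _ _
    _ ≤ ν A + ε := by
        rw [e]
        exact add_le_add (measure_mono inter_subset_right) hμ

theorem uni_of (hT : TIG) (hS : SEP) : UNI := by
  intro Ω μ ν hμ hν h
  obtain ⟨φ, hφ⟩ := hS Ω
  have hi : Function.Injective (psi φ) := fun T T' e => hφ T T' fun n => congrFun e n
  have hm := map_psi φ μ ν h
  have ht := hT Ω Bool (fun j => cond j μ ν) (by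
    intro ψ ε hε
    obtain ⟨R, hR⟩ := tail μ ψ ε hε
    have hs : MeasurableSet {x : ℝ | R < ‖x‖} := measurableSet_lt measurable_const measurable_norm
    refine ⟨R, fun j => ?_⟩
    cases j
    · rw [h ψ, Measure.map_apply (meas_ev ψ) hs] at hR
      exact hR
    · rw [Measure.map_apply (meas_ev ψ) hs] at hR
      exact hR)
  rw [isTightMeasureSet_iff_exists_isCompact_measure_compl_le] at ht
  refine Measure.ext fun A hA => le_antisymm ?_ ?_
  · refine le_of_tight φ hi μ ν hm (fun ε hε => ?_) A hA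
    obtain ⟨Q, hQ, hq⟩ := ht ε hε
    exact ⟨Q, hQ, hq _ ⟨true, rfl⟩⟩
  · refine le_of_tight φ hi ν μ hm.symm (fun ε hε => ?_) A hA
    obtain ⟨Q, hQ, hq⟩ := ht ε hε
    exact ⟨Q, hQ, hq _ ⟨false, rfl⟩⟩

end Vale.Agent.P153DU
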